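import Crest.Agent.R163.Cap.Rays

/-!
# Row 163 (S0246): from a flow with bounded ray potentials to a lower bound (deterministic part)
-/

set_option autoImplicit false
open Crest.ProbabilityR.TreeBroadcast

namespace Crest.Agent.R163.Cap

variable {V : Type*} [DecidableEq V] (T : LocFinTree V)

/-- The flow value, with the mass at the root. -/
noncomputable def th (θ : V → ℝ) (v : V) : ℝ := if v = T.root then flowMass T θ else θ v

lemma th_sum {θ : V → ℝ} (hθ : IsFlow T θ) (v : V) :
    ∑ w ∈ T.children v, th T θ w = th T θ v := by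
  have h1 : ∑ w ∈ T.children v, th T θ w = ∑ w ∈ T.children v, θ w := by
    refine Finset.sum_congr rfl fun w hw => ?_
    unfold th
    rw [if_neg (ne_root_of_mem_children T hw)]
  rw [h1]
  unfold th
  split_ifs with h
  · rw [h]; rfl
  · exact (hθ.2 v h).symm

lemma th_nonneg {θ : V → ℝ} (hθ : IsFlow T θ) (v : V) : 0 ≤ th T θ v := by
  unfold th
  split_ifs with h
  · exact Finset.sum_nonneg fun w _ => hθ.1 w
  · exact hθ.1 v

lemma th_level {θ : V → ℝ} (hθ : IsFlow T θ) (n : ℕ) :
    ∑ v ∈ T.level n, th T θ v = flowMass T θ := by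
  induction n with
  | zero =>
    rw [sum_level_zero]
    simp [th]
  | succ n ih =>
    rw [sum_level_succ, ← ih]
    exact Finset.sum_congr rfl fun v _ => th_sum T hθ v

/-- `u v = θ v / lam^(2 |v|)`, with the mass at the root. -/
noncomputable def u (lam : ℝ) (θ : V → ℝ) (v : V) : ℝ := th T θ v / lam ^ (2 * T.depth v)

/-- The weighted history `a w = lam * a (parent w) + u w`. -/
noncomputable def a (lam : ℝ) (θ : V → ℝ) : V → ℝ :=
  dn T (u T lam θ) (fun w x => lam * x + u T lam θ w)

/-- Path sums of `u * a`. -/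
noncomputable def W (lam : ℝ) (θ : V → ℝ) : V → ℝ :=
  dn T (fun v => u T lam θ v * a T lam θ v) (fun w x => x + u T lam θ w * a T lam θ w)

section facts

variable {lam : ℝ} {θ : V → ℝ}

lemma u_root : u T lam θ T.root = flowMass T θ := by
  simp [u, th, depth_root]

lemma u_nonneg (hθ : IsFlow T θ) (h0 : 0 < lam) (v : V) : 0 ≤ u T lam θ v :=
  div_nonneg (th_nonneg T hθ v) (pow_nonneg h0.le _)

lemma a_root : a T lam θ T.root = flowMass T θ := by
  rw [a, dn_root, u_root]

lemma a_child {v w : V} (h : w ∈ T.children v) :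
    a T lam θ w = lam * a T lam θ v + u T lam θ w := by
  rw [a, dn_child T _ _ h]

lemma a_nonneg (hθ : IsFlow T θ) (h0 : 0 < lam) (v : V) : 0 ≤ a T lam θ v := by
  revert v
  refine tree_induction T ?_ ?_
  · rw [a_root, ← u_root T (lam := lam)]
    exact u_nonneg T hθ h0 _
  · intro v hv w hw
    rw [a_child T hw]
    exact add_nonneg (mul_nonneg h0.le hv) (u_nonneg T hθ h0 _)

lemma W_root : W T lam θ T.root = flowMass T θ * flowMass T θ := by
  rw [W, dn_root, u_root, a_root]

lemma W_child {v w : V} (h : w ∈ T.children v) :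
    W T lam θ w = W T lam θ v + u T lam θ w * a T lam θ w := by
  rw [W, dn_child T _ _ h]

lemma W_nonneg (hθ : IsFlow T θ) (h0 : 0 < lam) (v : V) : 0 ≤ W T lam θ v := by
  revert v
  refine tree_induction T ?_ ?_
  · rw [W_root]
    exact mul_self_nonneg _
  · intro v hv w hw
    rw [W_child T hw]
    exact add_nonneg hv (mul_nonneg (u_nonneg T hθ h0 _) (a_nonneg T hθ h0 _))

lemma WQ_bound (h0 : 0 < lam) (h1 : lam < 1) (v : V) :
    W T lam θ v + lam * a T lam θ v ^ 2 ≤
      2 * flowMass T θ ^ 2 + 2 / (1 - lam) * QQ T lam θ v := by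
  have hl : 0 < 1 - lam := by linarith
  revert v
  refine tree_induction T ?_ ?_
  · rw [W_root, a_root, QQ, dn_root]
    nlinarith [sq_nonneg (flowMass T θ)]
  · intro v hv w hw
    have hne := ne_root_of_mem_children T hw
    have hu : uu T lam θ w = u T lam θ w := by simp [uu, u, th, hne]
    rw [W_child T hw, QQ, dn_child T _ _ hw]
    change _ ≤ 2 * flowMass T θ ^ 2 + 2 / (1 - lam) * (QQ T lam θ v + uu T lam θ w ^ 2)
    rw [hu]
    have hac := a_child T (lam := lam) (θ := θ) hw
    set x := u T lam θ w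
    set y := a T lam θ w
    set z := a T lam θ v
    -- `y^2 ≤ lam z^2 + x^2/(1-lam)`
    have k1 : (1 - lam) * y ^ 2 ≤ (1 - lam) * lam * z ^ 2 + x ^ 2 := by
      rw [hac]
      nlinarith [mul_nonneg h0.le (sq_nonneg ((1 - lam) * z - x))]
    have k1' : y ^ 2 ≤ lam * z ^ 2 + 1 / (1 - lam) * x ^ 2 := by
      have : y ^ 2 = (1 / (1 - lam)) * ((1 - lam) * y ^ 2) := by field_simp
      rw [this]
      calc (1 / (1 - lam)) * ((1 - lam) * y ^ 2)
          ≤ (1 / (1 - lam)) * ((1 - lam) * lam * z ^ 2 + x ^ 2) :=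
            mul_le_mul_of_nonneg_left k1 (by positivity)
        _ = _ := by field_simp
    -- `x y ≤ (1-lam) y^2 + x^2/(4(1-lam))`
    have k2 : x * y ≤ (1 - lam) * y ^ 2 + 1 / (1 - lam) * x ^ 2 := by
      have h3 : 0 ≤ (1 / (1 - lam)) * ((1 - lam) * y - x) ^ 2 := by positivity
      have h4 : (1 / (1 - lam)) * ((1 - lam) * y - x) ^ 2
          = (1 - lam) * y ^ 2 - 2 * (x * y) + 1 / (1 - lam) * x ^ 2 := by
        field_simp
        ring
      have h5 : 0 ≤ (1 - lam) * y ^ 2 + 1 / (1 - lam) * x ^ 2 := by positivity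
      nlinarith
    have e1 : 2 / (1 - lam) * (QQ T lam θ v + x ^ 2)
        = 2 / (1 - lam) * QQ T lam θ v + 2 * (1 / (1 - lam) * x ^ 2) := by ring
    rw [e1]
    nlinarith

/-- On vertices of positive flow the path sums are bounded. -/
lemma W_le (hθ : IsFlow T θ) (h0 : 0 < lam) (h1 : lam < 1)
    (hray : ∀ ξ : ℕ → V, T.IsRay ξ → rayPotential lam θ ξ ≤ 1) {v : V} (hv : v ≠ T.root)
    (hpos : 0 < θ v) :
    W T lam θ v ≤ 2 * flowMass T θ ^ 2 + 2 / (1 - lam) ∧
    lam * a T lam θ v ^ 2 ≤ 2 * flowMass T θ ^ 2 + 2 / (1 - lam) := by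
  have h := WQ_bound T (lam := lam) (θ := θ) h0 h1 v
  have hQ := QQ_le_one T hθ hray hv hpos
  have hl : 0 < 1 - lam := by linarith
  have h2 : 2 / (1 - lam) * QQ T lam θ v ≤ 2 / (1 - lam) := by
    have : 0 ≤ 2 / (1 - lam) := by positivity
    nlinarith
  have h3 := W_nonneg T hθ h0 v
  have h4 : 0 ≤ lam * a T lam θ v ^ 2 := by positivity
  constructor <;> linarith


/-- `u ≤ 1` away from the root. -/
lemma u_le_one (hθ : IsFlow T θ) (h0 : 0 < lam)
    (hray : ∀ ξ : ℕ → V, T.IsRay ξ → rayPotential lam θ ξ ≤ 1) {v : V} (hv : v ≠ T.root) :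
    θ v / lam ^ (2 * T.depth v) ≤ 1 := by
  rcases eq_or_lt_of_le (hθ.1 v) with h | h
  · rw [← h]; simp
  · have hQ := QQ_le_one T hθ hray hv h
    have h2 := mem_children_parent T hv
    rw [QQ, dn_child T _ _ h2] at hQ
    have h3 : 0 ≤ dn T (fun _ => (0 : ℝ)) (fun w q => q + uu T lam θ w ^ 2) (T.parent v) := by
      have : ∀ w, 0 ≤ dn T (fun _ => (0 : ℝ)) (fun w q => q + uu T lam θ w ^ 2) w := by
        refine tree_induction T ?_ ?_
        · rw [dn_root]
        · intro v hv w hw
          rw [dn_child T _ _ hw]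
          positivity
      exact this _
    have h4 : uu T lam θ v ^ 2 ≤ 1 := by linarith
    have h5 : 0 ≤ uu T lam θ v := div_nonneg (hθ.1 v) (pow_nonneg h0.le _)
    change uu T lam θ v ≤ 1
    nlinarith

/-- The history before `v`. -/
noncomputable def am (lam : ℝ) (θ : V → ℝ) (v : V) : ℝ := a T lam θ v - u T lam θ v

/-- The path sum before `v`. -/
noncomputable def Wm (lam : ℝ) (θ : V → ℝ) (v : V) : ℝ :=
  W T lam θ v - u T lam θ v * a T lam θ v

lemma am_root : am T lam θ T.root = 0 := by
  rw [am, a_root, u_root, sub_self]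

lemma am_child {v w : V} (h : w ∈ T.children v) : am T lam θ w = lam * a T lam θ v := by
  rw [am, a_child T h]; ring

lemma Wm_root : Wm T lam θ T.root = 0 := by
  rw [Wm, W_root, a_root, u_root, sub_self]

lemma Wm_child {v w : V} (h : w ∈ T.children v) : Wm T lam θ w = W T lam θ v := by
  rw [Wm, W_child T h]; ring

lemma am_nonneg (hθ : IsFlow T θ) (h0 : 0 < lam) (v : V) : 0 ≤ am T lam θ v := by
  by_cases h : v = T.root
  · rw [h, am_root]
  · rw [am_child T (mem_children_parent T h)]
    exact mul_nonneg h0.le (a_nonneg T hθ h0 _)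

lemma am_le (hθ : IsFlow T θ) (h0 : 0 < lam) (v : V) : am T lam θ v ≤ a T lam θ v := by
  have := u_nonneg T hθ h0 v
  unfold am
  linarith

lemma Wm_le (hθ : IsFlow T θ) (h0 : 0 < lam) (v : V) : Wm T lam θ v ≤ W T lam θ v := by
  have := mul_nonneg (u_nonneg T hθ h0 v) (a_nonneg T hθ h0 v)
  unfold Wm
  linarith

lemma pow_mul_u (h0 : 0 < lam) (v : V) : lam ^ (2 * T.depth v) * u T lam θ v = th T θ v := by
  unfold u
  field_simp

lemma sum_u (hθ : IsFlow T θ) (h0 : 0 < lam) (v : V) :
    ∑ w ∈ T.children v, lam ^ 2 * u T lam θ w = u T lam θ v := by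
  have h1 : ∀ w ∈ T.children v, lam ^ 2 * u T lam θ w
      = th T θ w * (1 / lam ^ (2 * T.depth v)) := by
    intro w hw
    have := ((mem_children T).1 hw).1
    unfold u
    rw [this]
    have : lam ^ (2 * (T.depth v + 1)) = lam ^ 2 * lam ^ (2 * T.depth v) := by ring
    rw [this]
    field_simp
  rw [Finset.sum_congr rfl h1, ← Finset.sum_mul, th_sum T hθ]
  unfold u
  ring

set_option maxHeartbeats 1000000 in
/-- **Backward capacity lemma** (deterministic part of the implication "positive cubic capacity
implies reconstruction"). -/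
theorem backward_capacity (hθ : IsFlow T θ) (hM : 0 < flowMass T θ) (h0 : 0 < lam)
    (h1 : lam < 1) (hray : ∀ ξ : ℕ → V, T.IsRay ξ → rayPotential lam θ ξ ≤ 1) {C : ℝ}
    (hC : 0 < C) {κ₀ : ℝ} (hκ₀ : 0 < κ₀) :
    ∃ κ ε : ℝ, 0 < κ ∧ κ ≤ κ₀ ∧ 0 < ε ∧ ∀ (n : ℕ) (s e : V → ℝ),
      (∀ v, T.depth v ≤ n + 1 → 0 ≤ s v) → (∀ v, T.depth v ≤ n + 1 → 0 ≤ e v) →
      (∀ v, T.depth v = n + 1 → s v = κ ^ 2 * (θ v / lam ^ (2 * (n + 1)))) →
      (∀ v, T.depth v = n + 1 → e v ≤ C * κ ^ 3 * (θ v / lam ^ (2 * (n + 1)))) →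
      (∀ v, T.depth v ≤ n →
        |s v - ∑ w ∈ T.children v, lam ^ 2 * s w| ≤
          C * (∑ w ∈ T.children v, lam ^ 2 * s w) *
            (∑ w ∈ T.children v, lam ^ 3 * e w
              + C * (∑ w ∈ T.children v, lam ^ 2 * s w) ^ 2)) →
      (∀ v, T.depth v ≤ n →
        e v ≤ ∑ w ∈ T.children v, lam ^ 3 * e w
              + C * (∑ w ∈ T.children v, lam ^ 2 * s w) ^ 2) →
      ε ≤ s T.root := by
  set M := flowMass T θ with hMdef
  have hl : 0 < 1 - lam := by linarith
  set K : ℝ := 2 * M ^ 2 + 2 / (1 - lam) with hK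
  have hK0 : 0 < K := by positivity
  -- bound for the histories
  set A : ℝ := K / lam + 1 with hA
  have hA0 : 0 < A := by positivity
  obtain ⟨κ, hκ0, hκle, hκ1, hκ⟩ : ∃ κ : ℝ, 0 < κ ∧ κ ≤ κ₀ ∧ κ ≤ 1 ∧
      κ * (4 * C * (C * (A + 4 * K))) ≤ 1 := by
    refine ⟨min κ₀ (min 1 (1 / (4 * C * (C * (A + 4 * K))))), ?_, min_le_left _ _, ?_, ?_⟩
    · refine lt_min hκ₀ (lt_min one_pos (by positivity))
    · exact (min_le_right _ _).trans (min_le_left _ _)
    · have hp : 0 < 4 * C * (C * (A + 4 * K)) := by positivity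
      calc _ ≤ (1 / (4 * C * (C * (A + 4 * K)))) * (4 * C * (C * (A + 4 * K))) :=
            mul_le_mul_of_nonneg_right ((min_le_right _ _).trans (min_le_right _ _)) hp.le
        _ = 1 := by field_simp
  set δ : ℝ := κ ^ 2 with hδ
  have hδ0 : 0 < δ := by positivity
  set γ : ℝ := 4 * C * δ ^ 2 with hγ
  have hγ0 : 0 < γ := by positivity
  set B0 : ℝ := C * κ ^ 3 * A + γ * K with hB0
  have hB0' : 4 * C * B0 ≤ 1 := by
    have e1 : B0 ≤ κ * (C * (A + 4 * K)) := by
      have k3 : κ ^ 3 ≤ κ := by
        have : κ ^ 2 ≤ 1 := by nlinarith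
        nlinarith
      have k4 : δ ^ 2 ≤ κ := by
        have h2 : δ ^ 2 = κ ^ 3 * κ := by rw [hδ]; ring
        rw [h2]
        have : κ ^ 3 ≤ 1 := by linarith
        nlinarith
      have e2 : C * κ ^ 3 * A ≤ C * κ * A := by
        have : 0 ≤ C * A := by positivity
        nlinarith
      have e3 : γ * K ≤ 4 * C * κ * K := by
        rw [hγ]
        have : 0 ≤ 4 * C * K := by positivity
        nlinarith
      rw [hB0]
      linarith
    calc 4 * C * B0 ≤ 4 * C * (κ * (C * (A + 4 * K))) :=
          mul_le_mul_of_nonneg_left e1 (by positivity)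
      _ = κ * (4 * C * (C * (A + 4 * K))) := by ring
      _ ≤ 1 := hκ
  -- bounds on vertices of positive flow
  have hWK : ∀ v, th T θ v * Wm T lam θ v ≤ th T θ v * K := by
    intro v
    rcases eq_or_lt_of_le (th_nonneg T hθ v) with h | h
    · rw [← h]; simp
    · refine mul_le_mul_of_nonneg_left ?_ h.le
      by_cases hr : v = T.root
      · rw [hr, Wm_root]; exact hK0.le
      · have hp : 0 < θ v := by
          unfold th at h
          rwa [if_neg hr] at h
        exact (Wm_le T hθ h0 v).trans (W_le T hθ h0 h1 hray hr hp).1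
  have hAK : ∀ v, th T θ v * am T lam θ v ≤ th T θ v * A := by
    intro v
    rcases eq_or_lt_of_le (th_nonneg T hθ v) with h | h
    · rw [← h]; simp
    · refine mul_le_mul_of_nonneg_left ?_ h.le
      by_cases hr : v = T.root
      · rw [hr, am_root]; exact hA0.le
      · have hp : 0 < θ v := by
          unfold th at h
          rwa [if_neg hr] at h
        have h2 := (W_le T hθ h0 h1 hray hr hp).2
        have h3 := am_le T hθ h0 (lam := lam) v
        have h4 : a T lam θ v ^ 2 ≤ K / lam := by
          rw [le_div_iff₀ h0]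
          linarith
        rw [hA]
        nlinarith [sq_nonneg (a T lam θ v - 1)]
  refine ⟨κ, δ * M / 2, hκ0, hκle, by positivity, ?_⟩
  intro n s e hs he hsl hel hsv hev
  -- the induction from the leaves
  have key : ∀ m : ℕ, m ≤ n + 1 → ∀ v, T.depth v = n + 1 - m →
      lam ^ (2 * T.depth v) * (am T lam θ v * e v)
        + 1 / (2 * C * δ) * (lam ^ (2 * T.depth v) * |s v - δ * u T lam θ v|)
        + γ * (th T θ v * Wm T lam θ v) ≤ th T θ v * B0 := by
    intro m
    induction m with
    | zero =>
      intro _ v hv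
      rw [Nat.sub_zero] at hv
      have hne : v ≠ T.root := by
        intro h
        rw [h, depth_root] at hv
        omega
      have hthv : th T θ v = θ v := by simp [th, hne]
      have huv : θ v / lam ^ (2 * (n + 1)) = u T lam θ v := by
        rw [u, hthv, hv]
      have h2 : s v - δ * u T lam θ v = 0 := by
        rw [hsl v hv, huv, sub_self]
      rw [h2, abs_zero, mul_zero, mul_zero, add_zero]
      have h3 := hel v hv
      rw [huv] at h3
      have h4 : lam ^ (2 * T.depth v) * (am T lam θ v * e v)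
          ≤ C * κ ^ 3 * (th T θ v * am T lam θ v) := by
        rw [← pow_mul_u T h0 v]
        have : 0 ≤ lam ^ (2 * T.depth v) * am T lam θ v :=
          mul_nonneg (by positivity) (am_nonneg T hθ h0 v)
        calc lam ^ (2 * T.depth v) * (am T lam θ v * e v)
            = (lam ^ (2 * T.depth v) * am T lam θ v) * e v := by ring
          _ ≤ (lam ^ (2 * T.depth v) * am T lam θ v) * (C * κ ^ 3 * u T lam θ v) :=
              mul_le_mul_of_nonneg_left h3 this
          _ = _ := by ring
      have h5 : C * κ ^ 3 * (th T θ v * am T lam θ v) ≤ C * κ ^ 3 * (th T θ v * A) :=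
        mul_le_mul_of_nonneg_left (hAK v) (by positivity)
      have h6 : γ * (th T θ v * Wm T lam θ v) ≤ γ * (th T θ v * K) :=
        mul_le_mul_of_nonneg_left (hWK v) hγ0.le
      calc _ ≤ C * κ ^ 3 * (th T θ v * A) + γ * (th T θ v * K) := by linarith
        _ = th T θ v * B0 := by rw [hB0]; ring
    | succ m ih =>
      intro hm v hv
      have hdn : T.depth v ≤ n := by omega
      have hchild : ∀ w ∈ T.children v, T.depth w = n + 1 - m := by
        intro w hw
        have := ((mem_children T).1 hw).1
        omega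
      -- bounds on the children
      have ihw := fun w hw => ih (by omega) w (hchild w hw)
      have hsw : ∀ w ∈ T.children v, |s w - δ * u T lam θ w| ≤ δ * u T lam θ w := by
        intro w hw
        have h2 := ihw w hw
        have h3 : 0 ≤ lam ^ (2 * T.depth w) * (am T lam θ w * e w) := by
          have := am_nonneg T hθ h0 w
          have := he w (by have := hchild w hw; omega)
          positivity
        have h4 : 0 ≤ γ * (th T θ w * Wm T lam θ w) := by
          rw [Wm_child T hw]
          have := W_nonneg T hθ h0 v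
          have := th_nonneg T hθ w
          positivity
        have h5 : 1 / (2 * C * δ) * (lam ^ (2 * T.depth w) * |s w - δ * u T lam θ w|)
            ≤ th T θ w * B0 := by linarith
        have hpw : 0 < lam ^ (2 * T.depth w) := by positivity
        have h6 : lam ^ (2 * T.depth w) * |s w - δ * u T lam θ w|
            ≤ (2 * C * δ) * (th T θ w * B0) := by
          have := mul_le_mul_of_nonneg_left h5 (show (0 : ℝ) ≤ 2 * C * δ by positivity)
          calc _ = (2 * C * δ) * (1 / (2 * C * δ) *
              (lam ^ (2 * T.depth w) * |s w - δ * u T lam θ w|)) := by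
                have hne : 2 * C * δ ≠ 0 := by positivity
                rw [← mul_assoc (2 * C * δ), mul_one_div_cancel hne, one_mul]
            _ ≤ _ := this
        rw [← pow_mul_u T h0 w] at h6
        have h7 : lam ^ (2 * T.depth w) * |s w - δ * u T lam θ w|
            ≤ lam ^ (2 * T.depth w) * (δ * u T lam θ w) := by
          refine h6.trans ?_
          have hu := u_nonneg T hθ h0 (lam := lam) w
          have : (2 * C * δ) * (lam ^ (2 * T.depth w) * u T lam θ w * B0)
              = (lam ^ (2 * T.depth w) * (δ * u T lam θ w)) * (2 * C * B0) := by ring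
          rw [this]
          have h8 : 2 * C * B0 ≤ 1 := by
            have : 0 ≤ C * B0 := by positivity
            linarith
          have h9 : 0 ≤ lam ^ (2 * T.depth w) * (δ * u T lam θ w) := by positivity
          nlinarith
        exact le_of_mul_le_mul_left h7 hpw
      set S := ∑ w ∈ T.children v, lam ^ 2 * s w with hS
      set E := ∑ w ∈ T.children v, lam ^ 3 * e w + C * S ^ 2 with hE
      have hS0 : 0 ≤ S := Finset.sum_nonneg fun w hw => by
        have := hs w (by have := hchild w hw; omega)
        positivity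
      have hE0 : 0 ≤ E := by
        have : 0 ≤ ∑ w ∈ T.children v, lam ^ 3 * e w := Finset.sum_nonneg fun w hw => by
          have := he w (by have := hchild w hw; omega)
          positivity
        positivity
      have huv0 := u_nonneg T hθ h0 (lam := lam) v
      have hSle : S ≤ 2 * δ * u T lam θ v := by
        rw [← sum_u T hθ h0 v, Finset.mul_sum]
        refine Finset.sum_le_sum fun w hw => ?_
        have h2 := (abs_le.1 (hsw w hw)).2
        have h3 : (0 : ℝ) ≤ lam ^ 2 := by positivity
        calc lam ^ 2 * s w ≤ lam ^ 2 * (2 * δ * u T lam θ w) :=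
              mul_le_mul_of_nonneg_left (by linarith) h3
          _ = _ := by ring
      have hEle : E ≤ ∑ w ∈ T.children v, lam ^ 3 * e w + γ * u T lam θ v ^ 2 := by
        have h2 : S ^ 2 ≤ (2 * δ * u T lam θ v) ^ 2 := pow_le_pow_left₀ hS0 hSle 2
        have h3 : C * S ^ 2 ≤ C * (2 * δ * u T lam θ v) ^ 2 :=
          mul_le_mul_of_nonneg_left h2 hC.le
        rw [hE, hγ]
        nlinarith
      have hsvv := hsv v hdn
      have hevv := hev v hdn
      -- first term
      have hpv : 0 < lam ^ (2 * T.depth v) := by positivity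
      have ham := am_nonneg T hθ h0 (lam := lam) v
      have t1 : am T lam θ v * e v ≤ am T lam θ v * E := mul_le_mul_of_nonneg_left hevv ham
      -- second term
      have t2 : |s v - δ * u T lam θ v| ≤ 2 * C * δ * (u T lam θ v * E)
          + ∑ w ∈ T.children v, lam ^ 2 * |s w - δ * u T lam θ w| := by
        have h2 : |s v - δ * u T lam θ v| ≤ |s v - S| + |S - δ * u T lam θ v| := by
          have := abs_add_le (s v - S) (S - δ * u T lam θ v)
          rwa [sub_add_sub_cancel] at this
        have h3 : |s v - S| ≤ 2 * C * δ * (u T lam θ v * E) := by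
          refine hsvv.trans ?_
          have : C * S ≤ C * (2 * δ * u T lam θ v) := mul_le_mul_of_nonneg_left hSle hC.le
          calc C * S * E ≤ C * (2 * δ * u T lam θ v) * E :=
                mul_le_mul_of_nonneg_right this hE0
            _ = _ := by ring
        have h4 : |S - δ * u T lam θ v|
            ≤ ∑ w ∈ T.children v, lam ^ 2 * |s w - δ * u T lam θ w| := by
          rw [hS, ← sum_u T hθ h0 v, Finset.mul_sum, ← Finset.sum_sub_distrib]
          refine (Finset.abs_sum_le_sum_abs _ _).trans (le_of_eq ?_)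
          refine Finset.sum_congr rfl fun w _ => ?_
          have : lam ^ 2 * s w - δ * (lam ^ 2 * u T lam θ w)
              = lam ^ 2 * (s w - δ * u T lam θ w) := by ring
          rw [this, abs_mul, abs_of_nonneg (by positivity : (0 : ℝ) ≤ lam ^ 2)]
        linarith
      have hsum : ∑ w ∈ T.children v, (lam ^ (2 * T.depth w) * (am T lam θ w * e w)
          + 1 / (2 * C * δ) * (lam ^ (2 * T.depth w) * |s w - δ * u T lam θ w|)
          + γ * (th T θ w * Wm T lam θ w)) ≤ th T θ v * B0 := by
        rw [← th_sum T hθ v, Finset.sum_mul]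
        exact Finset.sum_le_sum ihw
      refine le_trans ?_ hsum
      -- expand the sum over the children
      have hx : ∀ w ∈ T.children v, lam ^ (2 * T.depth w) * (am T lam θ w * e w)
          + 1 / (2 * C * δ) * (lam ^ (2 * T.depth w) * |s w - δ * u T lam θ w|)
          + γ * (th T θ w * Wm T lam θ w)
          = (lam ^ (2 * T.depth v) * a T lam θ v) * (lam ^ 3 * e w)
          + (1 / (2 * C * δ) * lam ^ (2 * T.depth v)) * (lam ^ 2 * |s w - δ * u T lam θ w|)
          + (γ * W T lam θ v) * th T θ w := by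
        intro w hw
        have hd := ((mem_children T).1 hw).1
        rw [am_child T hw, Wm_child T hw, hd]
        ring
      have hx2 : ∑ w ∈ T.children v, (lam ^ (2 * T.depth w) * (am T lam θ w * e w)
          + 1 / (2 * C * δ) * (lam ^ (2 * T.depth w) * |s w - δ * u T lam θ w|)
          + γ * (th T θ w * Wm T lam θ w))
          = (lam ^ (2 * T.depth v) * a T lam θ v) * (∑ w ∈ T.children v, lam ^ 3 * e w)
          + (1 / (2 * C * δ) * lam ^ (2 * T.depth v)) *
            (∑ w ∈ T.children v, lam ^ 2 * |s w - δ * u T lam θ w|)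
          + (γ * W T lam θ v) * th T θ v := by
        rw [Finset.sum_congr rfl hx, Finset.sum_add_distrib, Finset.sum_add_distrib,
          Finset.mul_sum (f := fun w => lam ^ 3 * e w),
          Finset.mul_sum (f := fun w => lam ^ 2 * |s w - δ * u T lam θ w|),
          ← Finset.mul_sum (f := fun w => th T θ w), th_sum T hθ v]
      rw [hx2]
      clear hx2 hx hsum ihw hsw
      set X := ∑ w ∈ T.children v, lam ^ 3 * e w
      set Y := ∑ w ∈ T.children v, lam ^ 2 * |s w - δ * u T lam θ w|
      -- combine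
      have c1 : lam ^ (2 * T.depth v) * (am T lam θ v * e v)
          ≤ lam ^ (2 * T.depth v) * (am T lam θ v * E) := mul_le_mul_of_nonneg_left t1 hpv.le
      have c2 : 1 / (2 * C * δ) * (lam ^ (2 * T.depth v) * |s v - δ * u T lam θ v|)
          ≤ lam ^ (2 * T.depth v) * (u T lam θ v * E)
            + 1 / (2 * C * δ) * lam ^ (2 * T.depth v) * Y := by
        have h2 := mul_le_mul_of_nonneg_left t2 hpv.le
        have h3 := mul_le_mul_of_nonneg_left h2 (show (0 : ℝ) ≤ 1 / (2 * C * δ) by positivity)
        refine h3.trans (le_of_eq ?_)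
        have hne : 2 * C * δ ≠ 0 := by positivity
        have h4 : 1 / (2 * C * δ) * (2 * C * δ) = 1 := one_div_mul_cancel hne
        calc 1 / (2 * C * δ) * (lam ^ (2 * T.depth v) * (2 * C * δ * (u T lam θ v * E) + Y))
            = (1 / (2 * C * δ) * (2 * C * δ)) * (lam ^ (2 * T.depth v) * (u T lam θ v * E))
              + 1 / (2 * C * δ) * lam ^ (2 * T.depth v) * Y := by ring
          _ = _ := by rw [h4, one_mul]
      have c3 : lam ^ (2 * T.depth v) * (am T lam θ v * E) + lam ^ (2 * T.depth v)
          * (u T lam θ v * E) = lam ^ (2 * T.depth v) * a T lam θ v * E := by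
        unfold am; ring
      have ha := a_nonneg T hθ h0 (lam := lam) v
      have c4 : lam ^ (2 * T.depth v) * a T lam θ v * E
          ≤ lam ^ (2 * T.depth v) * a T lam θ v * (X + γ * u T lam θ v ^ 2) :=
        mul_le_mul_of_nonneg_left hEle (by positivity)
      have c5 : lam ^ (2 * T.depth v) * a T lam θ v * (γ * u T lam θ v ^ 2)
          + γ * (th T θ v * Wm T lam θ v) = γ * W T lam θ v * th T θ v := by
        rw [← pow_mul_u T h0 v]
        unfold Wm
        ring
      have c6 : lam ^ (2 * T.depth v) * a T lam θ v * (X + γ * u T lam θ v ^ 2)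
          = lam ^ (2 * T.depth v) * a T lam θ v * X
            + lam ^ (2 * T.depth v) * a T lam θ v * (γ * u T lam θ v ^ 2) := by ring
      linarith
  -- conclusion at the root
  have hroot := key (n + 1) le_rfl T.root (by rw [depth_root, Nat.sub_self])
  rw [am_root, Wm_root, depth_root, u_root] at hroot
  have hthr : th T θ T.root = M := by simp [th, hMdef]
  rw [hthr] at hroot
  simp only [zero_mul, mul_zero, pow_zero, one_mul, zero_add, add_zero] at hroot
  have h2 : |s T.root - δ * M| ≤ δ * M / 2 := by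
    have h3 := mul_le_mul_of_nonneg_left hroot (show (0 : ℝ) ≤ 2 * C * δ by positivity)
    have h4 : 2 * C * δ * (1 / (2 * C * δ) * |s T.root - δ * M|) = |s T.root - δ * M| := by
      have hne : 2 * C * δ ≠ 0 := by positivity
      rw [← mul_assoc, mul_one_div_cancel hne, one_mul]
    rw [h4] at h3
    refine h3.trans ?_
    have : 2 * C * δ * (M * B0) = (δ * M / 2) * (4 * C * B0) := by ring
    rw [this]
    have : 0 ≤ δ * M / 2 := by positivity
    nlinarith
  have h5 := (abs_le.1 h2).1
  linarith

end facts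

end Crest.Agent.R163.Cap
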