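import Mathlib
import Crest.Prelude.Def_TreeBroadcast

/-!
# Row 163 (S0246): deterministic facts about locally finite rooted trees
-/

set_option autoImplicit false
open Crest.ProbabilityR.TreeBroadcast

namespace Crest.Agent.R163.Cap

variable {V : Type*} [DecidableEq V] (T : LocFinTree V)

lemma mem_children {v w : V} :
    w ∈ T.children v ↔ T.depth w = T.depth v + 1 ∧ T.parent w = v := by
  unfold LocFinTree.children
  rw [Finset.mem_filter, T.mem_level_iff]

lemma depth_root : T.depth T.root = 0 := (T.depth_eq_zero_iff _).2 rfl

lemma ne_root_of_mem_children {v w : V} (h : w ∈ T.children v) : w ≠ T.root := by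
  intro h'
  have := (mem_children T).1 h
  rw [h', depth_root] at this
  omega

lemma mem_children_parent {w : V} (h : w ≠ T.root) : w ∈ T.children (T.parent w) := by
  rw [mem_children]
  exact ⟨(T.depth_parent w h).symm, rfl⟩

lemma level_zero : T.level 0 = {T.root} := by
  ext v
  rw [T.mem_level_iff, T.depth_eq_zero_iff, Finset.mem_singleton]

lemma sum_level_zero (f : V → ℝ) : ∑ v ∈ T.level 0, f v = f T.root := by
  rw [level_zero, Finset.sum_singleton]

/-- Sums over a level as iterated sums over children. -/
lemma sum_level_succ (n : ℕ) (f : V → ℝ) :
    ∑ w ∈ T.level (n + 1), f w = ∑ v ∈ T.level n, ∑ w ∈ T.children v, f w := by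
  have hmap : ∀ w ∈ T.level (n + 1), T.parent w ∈ T.level n := by
    intro w hw
    have hd := (T.mem_level_iff _ _).1 hw
    have hne : w ≠ T.root := by
      intro h
      rw [h, depth_root] at hd
      omega
    have := T.depth_parent w hne
    exact (T.mem_level_iff _ _).2 (by omega)
  rw [← Finset.sum_fiberwise_of_maps_to hmap]
  refine Finset.sum_congr rfl fun v hv => ?_
  have hdv := (T.mem_level_iff _ _).1 hv
  refine Finset.sum_congr ?_ fun _ _ => rfl
  unfold LocFinTree.children
  rw [hdv]

/-- A function on vertices defined recursively from the root. -/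
def down {α : Type*} (base : V → α) (step : V → α → α) : ℕ → V → α
  | 0, v => base v
  | k + 1, v => step v (down base step k (T.parent v))

/-- The value at a vertex of a recursion from the root. -/
def dn {α : Type*} (base : V → α) (step : V → α → α) (v : V) : α :=
  down T base step (T.depth v) v

lemma dn_root {α : Type*} (base : V → α) (step : V → α → α) :
    dn T base step T.root = base T.root := by
  unfold dn
  rw [depth_root]
  rfl

lemma dn_child {α : Type*} (base : V → α) (step : V → α → α) {v w : V}
    (h : w ∈ T.children v) :
    dn T base step w = step w (dn T base step v) := by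
  unfold dn
  have h1 := (mem_children T).1 h
  rw [h1.1]
  show step w (down T base step (T.depth v) (T.parent w)) = _
  rw [h1.2]

/-- Induction from the root. -/
lemma tree_induction {P : V → Prop} (h0 : P T.root)
    (hs : ∀ v, P v → ∀ w ∈ T.children v, P w) : ∀ v, P v := by
  have key : ∀ n : ℕ, ∀ v, T.depth v = n → P v := by
    intro n
    induction n with
    | zero =>
      intro v hv
      rw [(T.depth_eq_zero_iff v).1 hv]
      exact h0
    | succ n ih =>
      intro v hv
      have hne : v ≠ T.root := by
        intro h
        rw [h, depth_root] at hv
        omega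
      have hp := T.depth_parent v hne
      exact hs (T.parent v) (ih _ (by omega)) v (mem_children_parent T hne)
  intro v
  exact key _ v rfl

/-- Total flow through each level is the mass. -/
lemma flow_level {θ : V → ℝ} (hθ : IsFlow T θ) (n : ℕ) :
    ∑ v ∈ T.level (n + 1), θ v = flowMass T θ := by
  induction n with
  | zero => rw [sum_level_succ, level_zero, Finset.sum_singleton]; rfl
  | succ n ih =>
    rw [sum_level_succ, ← ih]
    refine Finset.sum_congr rfl fun v hv => ?_
    have hne : v ≠ T.root := by
      intro h
      have := (T.mem_level_iff _ _).1 hv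
      rw [h, depth_root] at this
      omega
    exact (hθ.2 v hne).symm

lemma IsRay.depth {ξ : ℕ → V} (h : T.IsRay ξ) (n : ℕ) : T.depth (ξ n) = n := by
  induction n with
  | zero => rw [h.1, depth_root]
  | succ n ih =>
    have := (mem_children T).1 (h.2 n)
    omega

end Crest.Agent.R163.Cap
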