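import Crest.Agent.R163.Cap.Basic

/-!
# Row 163 (S0246): rays through vertices of positive flow, ray potentials
-/

set_option autoImplicit false
open Crest.ProbabilityR.TreeBroadcast

namespace Crest.Agent.R163.Cap

variable {V : Type*} [DecidableEq V] (T : LocFinTree V)

lemma depth_iterate_parent (v : V) (k : ℕ) (hk : k ≤ T.depth v) :
    T.depth (T.parent^[k] v) = T.depth v - k := by
  induction k with
  | zero => simp
  | succ k ih =>
    rw [Function.iterate_succ_apply']
    have h1 := ih (by omega)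
    have hne : T.parent^[k] v ≠ T.root := by
      intro h
      rw [h, depth_root] at h1
      omega
    have h2 := T.depth_parent _ hne
    omega

/-- Through every vertex of positive flow (other than the root) there is a ray. -/
lemma exists_ray {θ : V → ℝ} (hθ : IsFlow T θ) {v : V} (hv : v ≠ T.root) (hpos : 0 < θ v) :
    ∃ ξ : ℕ → V, T.IsRay ξ ∧ ξ (T.depth v) = v := by
  classical
  have hnext : ∀ w : V, w ≠ T.root → 0 < θ w → ∃ w' ∈ T.children w, 0 < θ w' := by
    intro w hw hwp
    by_contra hcon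
    push Not at hcon
    have := hθ.2 w hw
    have h2 : ∑ w' ∈ T.children w, θ w' ≤ 0 := Finset.sum_nonpos fun w' hw' => hcon w' hw'
    linarith
  choose! nx hnx1 hnx2 using hnext
  -- iterates of `nx` from `v`
  have hit : ∀ k : ℕ, nx^[k] v ≠ T.root ∧ 0 < θ (nx^[k] v) := by
    intro k
    induction k with
    | zero => exact ⟨hv, hpos⟩
    | succ k ih =>
      rw [Function.iterate_succ_apply']
      exact ⟨ne_root_of_mem_children T (hnx1 _ ih.1 ih.2), hnx2 _ ih.1 ih.2⟩
  refine ⟨fun n => if n ≤ T.depth v then T.parent^[T.depth v - n] v else nx^[n - T.depth v] v,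
    ⟨?_, ?_⟩, ?_⟩
  · simp only [Nat.zero_le, if_true, Nat.sub_zero]
    have := depth_iterate_parent T v (T.depth v) le_rfl
    rw [Nat.sub_self] at this
    exact (T.depth_eq_zero_iff _).1 this
  · intro n
    rcases lt_trichotomy n (T.depth v) with h | h | h
    · have e1 : n + 1 ≤ T.depth v := h
      have e2 : n ≤ T.depth v := h.le
      simp only [e1, e2, if_true]
      have e3 : T.depth v - n = (T.depth v - (n + 1)) + 1 := by omega
      rw [e3, Function.iterate_succ_apply']
      apply mem_children_parent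
      intro hcon
      have h1 := depth_iterate_parent T v (T.depth v - (n + 1)) (by omega)
      rw [hcon, depth_root] at h1
      omega
    · subst h
      have e1 : ¬ (T.depth v + 1 ≤ T.depth v) := by omega
      simp only [e1, le_refl, if_true, if_false, Nat.sub_self, Function.iterate_zero, id]
      have e2 : T.depth v + 1 - T.depth v = 1 := by omega
      rw [e2, Function.iterate_one]
      exact hnx1 v hv hpos
    · have e1 : ¬ (n + 1 ≤ T.depth v) := by omega
      have e2 : ¬ (n ≤ T.depth v) := by omega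
      simp only [e1, e2, if_false]
      have e3 : n + 1 - T.depth v = (n - T.depth v) + 1 := by omega
      rw [e3, Function.iterate_succ_apply']
      exact hnx1 _ (hit _).1 (hit _).2
  · simp

/-- Partial sums of a ray potential bounded by one. -/
lemma partial_potential_le {lam : ℝ} {θ : V → ℝ} {ξ : ℕ → V}
    (h : rayPotential lam θ ξ ≤ 1) (m : ℕ) :
    ∑ n ∈ Finset.range m, (θ (ξ (n + 1)) / lam ^ (2 * (n + 1))) ^ 2 ≤ 1 := by
  have h1 : ∑ n ∈ Finset.range m,
      ENNReal.ofReal ((θ (ξ (n + 1)) / lam ^ (2 * (n + 1))) ^ 2) ≤ 1 :=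
    (ENNReal.sum_le_tsum _).trans h
  rw [← ENNReal.ofReal_sum_of_nonneg (fun _ _ => sq_nonneg _)] at h1
  have := (ENNReal.ofReal_le_one).1 h1
  exact this

/-- A ray potential is at most `1` when all partial sums are. -/
lemma potential_le_of_partial {lam : ℝ} {θ : V → ℝ} {ξ : ℕ → V}
    (h : ∀ m : ℕ, ∑ n ∈ Finset.range m, (θ (ξ (n + 1)) / lam ^ (2 * (n + 1))) ^ 2 ≤ 1) :
    rayPotential lam θ ξ ≤ 1 := by
  unfold rayPotential
  rw [ENNReal.tsum_eq_iSup_nat]
  refine iSup_le fun m => ?_
  rw [← ENNReal.ofReal_sum_of_nonneg (fun _ _ => sq_nonneg _)]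
  exact ENNReal.ofReal_le_one.2 (h m)

/-- `u v = θ v / lam ^ (2 |v|)` for `v` not the root. -/
noncomputable def uu (lam : ℝ) (θ : V → ℝ) (v : V) : ℝ := θ v / lam ^ (2 * T.depth v)

/-- Sum of `u²` over the vertices of the path from the root (root excluded) to `v`. -/
noncomputable def QQ (lam : ℝ) (θ : V → ℝ) : V → ℝ :=
  dn T (fun _ => 0) (fun w q => q + uu T lam θ w ^ 2)

lemma QQ_ray {lam : ℝ} {θ : V → ℝ} {ξ : ℕ → V} (hξ : T.IsRay ξ) (m : ℕ) :
    QQ T lam θ (ξ m) = ∑ n ∈ Finset.range m, (θ (ξ (n + 1)) / lam ^ (2 * (n + 1))) ^ 2 := by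
  induction m with
  | zero =>
    rw [hξ.1]
    simp [QQ, dn_root]
  | succ m ih =>
    unfold QQ at ih ⊢
    rw [dn_child T _ _ (hξ.2 m), ih, Finset.sum_range_succ]
    congr 2
    unfold uu
    rw [IsRay.depth T hξ]

lemma QQ_le_one {lam : ℝ} {θ : V → ℝ} (hθ : IsFlow T θ)
    (hray : ∀ ξ : ℕ → V, T.IsRay ξ → rayPotential lam θ ξ ≤ 1) {v : V} (hv : v ≠ T.root)
    (hpos : 0 < θ v) : QQ T lam θ v ≤ 1 := by
  obtain ⟨ξ, hξ, hv'⟩ := exists_ray T hθ hv hpos
  rw [← hv', QQ_ray T hξ]
  exact partial_potential_le (hray ξ hξ) _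

end Crest.Agent.R163.Cap
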